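import Mathlib

/-!
P346: normal form of syntactically homogeneous depth-five circuits (abstract version).
-/

open MvPolynomial

namespace Vale.Agent.P346.NF

variable {K : Type*} [Field K] {σ : Type*}

/-- a list with sum at least `2h` and entries at most `2h` has a prefix with sum in `[2h,4h)` -/
theorem exists_prefix {B : Type*} (d : B → ℕ) (h : ℕ) (hh : 0 < h) :
    ∀ l : List B, (∀ b ∈ l, d b ≤ 2 * h) → 2 * h ≤ (l.map d).sum →
      ∃ l₁ l₂, l = l₁ ++ l₂ ∧ 2 * h ≤ (l₁.map d).sum ∧ (l₁.map d).sum < 4 * h := by
  -- generalise: a threshold `t ≤ 2h`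
  have key : ∀ (l : List B) (t : ℕ), 0 < t → (∀ b ∈ l, d b ≤ 2 * h) → t ≤ (l.map d).sum →
      ∃ l₁ l₂, l = l₁ ++ l₂ ∧ t ≤ (l₁.map d).sum ∧ (l₁.map d).sum < t + 2 * h := by
    intro l
    induction l with
    | nil =>
      intro t ht _ hs
      simp at hs
      omega
    | cons a l ih =>
      intro t ht hl hs
      by_cases ha : t ≤ d a
      · refine ⟨[a], l, rfl, by simpa using ha, ?_⟩
        have := hl a (by simp)
        simp only [List.map_cons, List.map_nil, List.sum_cons, List.sum_nil]
        omega
      · have hs' : t - d a ≤ (l.map d).sum := by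
          simp only [List.map_cons, List.sum_cons] at hs
          omega
        obtain ⟨l₁, l₂, h1, h2, h3⟩ := ih (t - d a) (by omega)
          (fun b hb => hl b (List.mem_cons_of_mem _ hb)) hs'
        refine ⟨a :: l₁, l₂, by rw [h1]; rfl, ?_, ?_⟩ <;>
          simp only [List.map_cons, List.sum_cons] <;> omega
  intro l hl hs
  obtain ⟨l₁, l₂, h1, h2, h3⟩ := key l (2 * h) (by omega) hl hs
  exact ⟨l₁, l₂, h1, h2, by omega⟩

theorem isHomogeneous_list_prod {B : Type*} (f : B → MvPolynomial σ K) (d : B → ℕ) (l : List B)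
    (hf : ∀ b ∈ l, (f b).IsHomogeneous (d b)) :
    ((l.map f).prod).IsHomogeneous (l.map d).sum := by
  induction l with
  | nil => simpa using isHomogeneous_one σ K
  | cons a l ih =>
    simp only [List.map_cons, List.prod_cons, List.sum_cons]
    exact (hf a (by simp)).mul (ih fun b hb => hf b (List.mem_cons_of_mem _ hb))

/-- grouping of the factors of a product into `r` groups of degree in `[2h,4h)` and a rest -/
theorem group_list {B : Type*} (f : B → MvPolynomial σ K) (d : B → ℕ) (h : ℕ) (hh : 0 < h)
    (r : ℕ) : ∀ l : List B, (∀ b ∈ l, (f b).IsHomogeneous (d b)) → (∀ b ∈ l, d b ≤ 2 * h) →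
      4 * h * r ≤ (l.map d).sum →
      ∃ (G : Fin r → MvPolynomial σ K) (D : Fin r → ℕ) (R : MvPolynomial σ K) (e : ℕ),
        (∀ j, (G j).IsHomogeneous (D j) ∧ 2 * h ≤ D j ∧ D j < 4 * h) ∧
        R.IsHomogeneous e ∧ ∑ j, D j + e = (l.map d).sum ∧ (∏ j, G j) * R = (l.map f).prod := by
  induction r with
  | zero =>
    intro l hf _ _
    exact ⟨Fin.elim0, Fin.elim0, (l.map f).prod, (l.map d).sum, fun j => j.elim0,
      isHomogeneous_list_prod f d l hf, by simp, by simp⟩
  | succ r ih =>
    intro l hf hd hs
    obtain ⟨l₁, l₂, rfl, h1, h2⟩ := exists_prefix d h hh l hd (by nlinarith)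
    have hs2 : 4 * h * r ≤ (l₂.map d).sum := by
      rw [List.map_append, List.sum_append] at hs
      nlinarith
    obtain ⟨G, D, R, e, hG, hR, hsum, hprod⟩ := ih l₂
      (fun b hb => hf b (List.mem_append_right _ hb))
      (fun b hb => hd b (List.mem_append_right _ hb)) hs2
    refine ⟨Fin.cons (l₁.map f).prod G, Fin.cons (l₁.map d).sum D, R, e, ?_, hR, ?_, ?_⟩
    · intro j
      refine Fin.cases ?_ (fun j => ?_) j
      · exact ⟨isHomogeneous_list_prod f d l₁ fun b hb => hf b (List.mem_append_left _ hb), h1, h2⟩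
      · exact hG j
    · rw [Fin.sum_univ_succ]
      simp only [Fin.cons_zero, Fin.cons_succ, List.map_append, List.sum_append]
      omega
    · rw [Fin.prod_univ_succ]
      simp only [Fin.cons_zero, Fin.cons_succ, List.map_append, List.prod_append]
      rw [mul_assoc, hprod]

/-- at least `r` factors of degree one can be split off -/
theorem split_linear {E : Type*} (L : E → MvPolynomial σ K) (d : E → ℕ) (r : ℕ) :
    ∀ l : List E, (∀ e ∈ l, (L e).IsHomogeneous (d e)) → (∀ e ∈ l, d e ≤ 1) →
      r ≤ (l.map d).sum →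
      ∃ (G : Fin r → MvPolynomial σ K) (R : MvPolynomial σ K) (e : ℕ),
        (∀ j, (G j).IsHomogeneous 1) ∧ R.IsHomogeneous e ∧ r + e = (l.map d).sum ∧
          (∏ j, G j) * R = (l.map L).prod := by
  intro l
  induction l generalizing r with
  | nil =>
    intro _ _ hr
    simp only [List.map_nil, List.sum_nil, nonpos_iff_eq_zero] at hr
    subst hr
    exact ⟨Fin.elim0, 1, 0, fun j => j.elim0, isHomogeneous_one σ K, by simp, by simp⟩
  | cons a l ih =>
    intro hL hd hr
    have hL' : ∀ e ∈ l, (L e).IsHomogeneous (d e) := fun e he => hL e (List.mem_cons_of_mem _ he)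
    have hd' : ∀ e ∈ l, d e ≤ 1 := fun e he => hd e (List.mem_cons_of_mem _ he)
    have ha := hL a (by simp)
    have hda := hd a (by simp)
    simp only [List.map_cons, List.sum_cons] at hr ⊢
    by_cases hr0 : d a = 1 ∧ 0 < r
    · obtain ⟨h1, h2⟩ := hr0
      obtain ⟨r, rfl⟩ := Nat.exists_eq_succ_of_ne_zero h2.ne'
      obtain ⟨G, R, e, hG, hR, hs, hp⟩ := ih r hL' hd' (by omega)
      refine ⟨Fin.cons (L a) G, R, e, ?_, hR, by omega, ?_⟩
      · intro j
        refine Fin.cases ?_ (fun j => hG j) j
        rw [h1] at ha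
        exact ha
      · rw [Fin.prod_univ_succ]
        simp only [Fin.cons_zero, Fin.cons_succ, List.prod_cons]
        rw [mul_assoc, hp]
    · obtain ⟨G, R, e, hG, hR, hs, hp⟩ := ih r hL' hd' (by omega)
      refine ⟨G, L a * R, d a + e, hG, ha.mul hR, by omega, ?_⟩
      rw [List.prod_cons, ← hp]
      ring

/-- the data of a syntactically homogeneous `ΣΠΣΠΣ` circuit, evaluated from the bottom sums `L` -/
structure Data (K : Type*) [Field K] (σ : Type*) (A B C E : Type*) where
  /-- coefficients of the output gate -/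
  α : A → K
  /-- multiplicities of the edges middle sum → top product -/
  m : A → B → ℕ
  /-- coefficients of the middle sums -/
  β : B → C → K
  /-- multiplicities of the edges bottom sum → bottom product -/
  k : C → E → ℕ
  /-- the polynomials computed by the bottom sums -/
  L : E → MvPolynomial σ K

namespace Data

variable {A B C E : Type*} [Fintype A] [Fintype B] [Fintype C] [Fintype E]

/-- polynomial of a bottom product gate -/
noncomputable def bot (X : Data K σ A B C E) (c : C) : MvPolynomial σ K := ∏ e, X.L e ^ X.k c e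

/-- polynomial of a middle sum gate -/
noncomputable def mid (X : Data K σ A B C E) (b : B) : MvPolynomial σ K :=
  ∑ c, MvPolynomial.C (X.β b c) * X.bot c

/-- polynomial of a top product gate -/
noncomputable def top (X : Data K σ A B C E) (a : A) : MvPolynomial σ K := ∏ b, X.mid b ^ X.m a b

/-- the output polynomial -/
noncomputable def out (X : Data K σ A B C E) : MvPolynomial σ K :=
  ∑ a, MvPolynomial.C (X.α a) * X.top a

/-- syntactic homogeneity of degree `n` with the degrees `dE`, `dB` of the bottom and middle sums -/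
structure Hom (X : Data K σ A B C E) (n : ℕ) (dE : E → ℕ) (dB : B → ℕ) : Prop where
  le_one : ∀ e, dE e ≤ 1
  lin : ∀ e, (X.L e).IsHomogeneous (dE e)
  mid : ∀ b c, X.β b c ≠ 0 → ∑ e, X.k c e * dE e = dB b
  top : ∀ a, X.α a ≠ 0 → ∑ b, X.m a b * dB b = n

/-- the list of the elements of a finite type with multiplicities -/
noncomputable def mlist {T : Type*} [Fintype T] (m : T → ℕ) : List T :=
  Finset.univ.toList.flatMap fun t => List.replicate (m t) t

theorem map_sum_mlist {T : Type*} [Fintype T] (m : T → ℕ) (d : T → ℕ) :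
    ((mlist m).map d).sum = ∑ t, m t * d t := by
  unfold mlist
  rw [List.map_flatMap, List.flatMap_def, List.sum_flatten, List.map_map]
  rw [← Finset.sum_map_toList]
  congr 1
  apply List.map_congr_left
  intro t _
  simp

theorem map_prod_mlist {T : Type*} [Fintype T] {M : Type*} [CommMonoid M] (m : T → ℕ) (f : T → M) :
    ((mlist m).map f).prod = ∏ t, f t ^ m t := by
  unfold mlist
  rw [List.map_flatMap, List.flatMap_def, List.prod_flatten, List.map_map]
  rw [← Finset.prod_map_toList]
  congr 1
  apply List.map_congr_left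
  intro t _
  simp

theorem mem_mlist {T : Type*} [Fintype T] (m : T → ℕ) (t : T) : t ∈ mlist m ↔ m t ≠ 0 := by
  unfold mlist
  simp only [List.mem_flatMap, Finset.mem_toList, Finset.mem_univ, true_and, List.mem_replicate]
  constructor
  · rintro ⟨a, h1, rfl⟩
    exact h1
  · intro h
    exact ⟨t, h, rfl⟩

theorem bot_hom (X : Data K σ A B C E) {n : ℕ} {dE : E → ℕ} {dB : B → ℕ} (hX : X.Hom n dE dB)
    (c : C) : (X.bot c).IsHomogeneous (∑ e, X.k c e * dE e) := by
  unfold bot
  rw [← map_prod_mlist, ← map_sum_mlist]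
  exact isHomogeneous_list_prod _ _ _ fun e _ => hX.lin e

theorem mid_hom (X : Data K σ A B C E) {n : ℕ} {dE : E → ℕ} {dB : B → ℕ} (hX : X.Hom n dE dB)
    (b : B) : (X.mid b).IsHomogeneous (dB b) := by
  unfold Data.mid
  apply IsHomogeneous.sum
  intro c _
  by_cases h : X.β b c = 0
  · rw [h, map_zero, zero_mul]
    exact isHomogeneous_zero _ _ _
  · have h1 := X.bot_hom hX c
    rw [hX.mid b c h] at h1
    have h2 := (isHomogeneous_C σ (X.β b c)).mul h1
    rwa [zero_add] at h2

/-- one term of the normal form -/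
def Term (K : Type*) [Field K] (σ : Type*) (h r n : ℕ) (F : MvPolynomial σ K) : Prop :=
  ∃ (G : Fin r → MvPolynomial σ K) (D : Fin r → ℕ) (R : MvPolynomial σ K) (e : ℕ),
    (∀ j, (G j).IsHomogeneous (D j) ∧ (D j = 1 ∨ 2 * h ≤ D j ∧ D j < 4 * h)) ∧
    R.IsHomogeneous e ∧ ∑ j, D j + e = n ∧ F = (∏ j, G j) * R

theorem term_zero {h r n : ℕ} (hrn : r ≤ n) : Term K σ h r n 0 := by
  refine ⟨fun _ => 0, fun _ => 1, 0, n - r, fun j => ⟨isHomogeneous_zero _ _ _, Or.inl rfl⟩,
    isHomogeneous_zero _ _ _, ?_, by simp⟩
  simp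
  omega

theorem Term.smul {h r n : ℕ} {F : MvPolynomial σ K} (hF : Term K σ h r n F) (c : K) :
    Term K σ h r n (MvPolynomial.C c * F) := by
  obtain ⟨G, D, R, e, h1, h2, h3, h4⟩ := hF
  refine ⟨G, D, MvPolynomial.C c * R, e, h1, ?_, h3, ?_⟩
  · have := (isHomogeneous_C σ c).mul h2
    rwa [zero_add] at this
  · rw [h4]; ring

/-- the normal form: the output is a sum of at most `|A| (|C| + 1)` terms -/
theorem normal_form (X : Data K σ A B C E) {n : ℕ} {dE : E → ℕ} {dB : B → ℕ}
    (hX : X.Hom n dE dB) (h r : ℕ) (hh : 0 < h) (hr : r ≤ 2 * h) (hn : 4 * h * r ≤ n) :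
    ∃ T : A → Option C → MvPolynomial σ K, (∀ a c, Term K σ h r n (T a c)) ∧
      X.out = ∑ a, ∑ c, T a c := by
  classical
  have hrn : r ≤ n := by nlinarith
  have key : ∀ a, ∃ T : Option C → MvPolynomial σ K, (∀ c, Term K σ h r n (T c)) ∧
      MvPolynomial.C (X.α a) * X.top a = ∑ c, T c := by
    intro a
    by_cases hα : X.α a = 0
    · refine ⟨fun _ => 0, fun _ => term_zero hrn, ?_⟩
      simp [hα]
    have htop := hX.top a hα
    by_cases hbig : ∃ b, X.m a b ≠ 0 ∧ 2 * h < dB b
    · -- expand a factor of large degree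
      obtain ⟨b₀, hb₀, hb₁⟩ := hbig
      set m' : B → ℕ := Function.update (X.m a) b₀ (X.m a b₀ - 1) with hm'
      set rest : MvPolynomial σ K := ∏ b, X.mid b ^ m' b with hrest
      have hrest_hom : rest.IsHomogeneous (∑ b, m' b * dB b) := by
        rw [hrest, ← map_prod_mlist, ← map_sum_mlist]
        exact isHomogeneous_list_prod _ _ _ fun b _ => X.mid_hom hX b
      have hdeg : dB b₀ + ∑ b, m' b * dB b = n := by
        rw [← htop, ← Finset.add_sum_erase _ _ (Finset.mem_univ b₀),
          ← Finset.add_sum_erase _ _ (Finset.mem_univ b₀)]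
        have h1 : ∑ b ∈ Finset.univ.erase b₀, m' b * dB b =
            ∑ b ∈ Finset.univ.erase b₀, X.m a b * dB b := by
          apply Finset.sum_congr rfl
          intro b hb
          rw [hm', Function.update_of_ne (Finset.ne_of_mem_erase hb)]
        rw [h1, hm', Function.update_self]
        obtain ⟨q, hq⟩ := Nat.exists_eq_succ_of_ne_zero hb₀
        rw [hq]
        simp only [Nat.succ_eq_add_one, Nat.add_sub_cancel]
        ring
      have hprod : X.top a = X.mid b₀ * rest := by
        rw [hrest, Data.top, ← Finset.mul_prod_erase _ _ (Finset.mem_univ b₀),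
          ← Finset.mul_prod_erase _ _ (Finset.mem_univ b₀)]
        have h1 : ∏ b ∈ Finset.univ.erase b₀, X.mid b ^ m' b =
            ∏ b ∈ Finset.univ.erase b₀, X.mid b ^ X.m a b := by
          apply Finset.prod_congr rfl
          intro b hb
          rw [hm', Function.update_of_ne (Finset.ne_of_mem_erase hb)]
        rw [h1, hm', Function.update_self, ← mul_assoc, ← pow_succ',
          Nat.sub_add_cancel (Nat.one_le_iff_ne_zero.2 hb₀)]
      refine ⟨fun c => match c with
        | none => 0
        | some c => MvPolynomial.C (X.α a) * (MvPolynomial.C (X.β b₀ c) * (X.bot c * rest)),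
        ?_, ?_⟩
      · intro c
        cases c with
        | none => exact term_zero hrn
        | some c =>
          apply Term.smul
          by_cases hβ : X.β b₀ c = 0
          · rw [hβ, map_zero, zero_mul]
            exact term_zero hrn
          apply Term.smul
          have hdc := hX.mid b₀ c hβ
          obtain ⟨G, R, e, hG, hR, hs, hp⟩ := split_linear X.L dE r (mlist (X.k c))
            (fun e _ => hX.lin e) (fun e _ => hX.le_one e) (by
              rw [map_sum_mlist, hdc]
              omega)
          rw [map_sum_mlist, hdc] at hs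
          rw [map_prod_mlist] at hp
          refine ⟨G, fun _ => 1, R * rest, e + ∑ b, m' b * dB b,
            fun j => ⟨hG j, Or.inl rfl⟩, hR.mul hrest_hom, ?_, ?_⟩
          · simp only [Finset.sum_const, Finset.card_univ, Fintype.card_fin, smul_eq_mul, mul_one]
            omega
          · unfold bot
            rw [← hp]
            ring
      · rw [Fintype.sum_option]
        simp only [zero_add]
        rw [← Finset.mul_sum, hprod]
        congr 1
        unfold Data.mid
        rw [Finset.sum_mul]
        apply Finset.sum_congr rfl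
        intro c _
        ring
    · -- all factors have degree at most `2h`
      have hsmall : ∀ b, X.m a b ≠ 0 → dB b ≤ 2 * h := by
        intro b hb
        by_contra hcon
        exact hbig ⟨b, hb, by omega⟩
      obtain ⟨G, D, R, e, hG, hR, hs, hp⟩ := group_list X.mid dB h hh r (mlist (X.m a))
        (fun b _ => X.mid_hom hX b) (fun b hb => hsmall b ((mem_mlist _ _).1 hb)) (by
          rw [map_sum_mlist, htop]
          exact hn)
      rw [map_sum_mlist, htop] at hs
      rw [map_prod_mlist] at hp
      refine ⟨fun c => match c with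
        | none => MvPolynomial.C (X.α a) * X.top a
        | some _ => 0, ?_, ?_⟩
      · intro c
        cases c with
        | none =>
          apply Term.smul
          exact ⟨G, D, R, e, fun j => ⟨(hG j).1, Or.inr (hG j).2⟩, hR, hs, hp.symm⟩
        | some c => exact term_zero hrn
      · rw [Fintype.sum_option]
        simp
  choose T hT1 hT2 using key
  exact ⟨T, hT1, Finset.sum_congr rfl fun a _ => hT2 a⟩

end Data

end Vale.Agent.P346.NF
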